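import Vale.Agent.P151.Return

/-!
Convolution operators on `ℓ²` of a group: the trace at the origin, monotonicity of traces of powers
in the form order, inversion of form bounds, and the regularised Green operator of the lazy walk.
-/

namespace Vale.Agent.P151.Ops

open scoped InnerProductSpace ENNReal
open Finset Filter Topology

variable {Γ : Type} [Group Γ]

/-- Square summable functions on the group. -/
abbrev L2 (Γ : Type) : Type := lp (fun _ : Γ => ℝ) 2

/-- Precomposition with a bijection, as an isometry of `ℓ²`. -/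
noncomputable def comp (e : Γ ≃ Γ) : L2 Γ →ₗᵢ[ℝ] L2 Γ where
  toFun f := ⟨fun x => f (e x), memℓp_gen (((lp.memℓp f).summable (by simp)).comp_injective e.injective)⟩
  map_add' f g := by ext x; rfl
  map_smul' c f := by ext x; rfl
  norm_map' f := by
    rw [lp.norm_eq_tsum_rpow (by simp), lp.norm_eq_tsum_rpow (by simp)]
    congr 1
    exact e.tsum_eq fun x => ‖f x‖ ^ (2 : ℝ≥0∞).toReal

/-- Right translation `(rmul t f) x = f (x * t)`. -/
noncomputable def rmul (t : Γ) : L2 Γ →L[ℝ] L2 Γ := (comp (Equiv.mulRight t)).toContinuousLinearMap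

/-- Left translation `(lmul g f) x = f (g * x)`. -/
noncomputable def lmul (g : Γ) : L2 Γ →L[ℝ] L2 Γ := (comp (Equiv.mulLeft g)).toContinuousLinearMap

@[simp] lemma rmul_apply (t : Γ) (f : L2 Γ) (x : Γ) : rmul t f x = f (x * t) := rfl

@[simp] lemma lmul_apply (g : Γ) (f : L2 Γ) (x : Γ) : lmul g f x = f (g * x) := rfl

lemma norm_rmul_le (t : Γ) : ‖rmul t‖ ≤ 1 := LinearIsometry.norm_toContinuousLinearMap_le _

/-- Commutation with all left translations. -/
def Equivariant (A : L2 Γ →L[ℝ] L2 Γ) : Prop := ∀ g f, A (lmul g f) = lmul g (A f)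

lemma Equivariant.one : Equivariant (1 : L2 Γ →L[ℝ] L2 Γ) := fun _ _ => rfl

lemma Equivariant.add {A B : L2 Γ →L[ℝ] L2 Γ} (hA : Equivariant A) (hB : Equivariant B) :
    Equivariant (A + B) := fun g f => by simp [hA g f, hB g f]

lemma Equivariant.sub {A B : L2 Γ →L[ℝ] L2 Γ} (hA : Equivariant A) (hB : Equivariant B) :
    Equivariant (A - B) := fun g f => by simp [hA g f, hB g f]

lemma Equivariant.smul {A : L2 Γ →L[ℝ] L2 Γ} (hA : Equivariant A) (c : ℝ) :
    Equivariant (c • A) := fun g f => by simp [hA g f]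

lemma Equivariant.mul {A B : L2 Γ →L[ℝ] L2 Γ} (hA : Equivariant A) (hB : Equivariant B) :
    Equivariant (A * B) := fun g f => by simp [hA g (B f), hB g f]

lemma Equivariant.pow {A : L2 Γ →L[ℝ] L2 Γ} (hA : Equivariant A) : ∀ n : ℕ, Equivariant (A ^ n)
  | 0 => Equivariant.one
  | n + 1 => (hA.pow n).mul hA

lemma equivariant_rmul (t : Γ) : Equivariant (rmul t) := fun g f => by
  ext x; simp [mul_assoc]

lemma Equivariant.sum {κ : Type} (s : Finset κ) {A : κ → L2 Γ →L[ℝ] L2 Γ}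
    (h : ∀ k, Equivariant (A k)) : Equivariant (∑ k ∈ s, A k) := fun g f => by
  simp only [_root_.sum_apply, map_sum]
  exact sum_congr rfl fun k _ => h k g f

variable [DecidableEq Γ]

/-- The unit vector at `x`. -/
noncomputable def δ (x : Γ) : L2 Γ := lp.single 2 x 1

omit [Group Γ] in
lemma inner_δ (x : Γ) (f : L2 Γ) : ⟪δ x, f⟫_ℝ = f x := by
  simp [δ, lp.inner_single_left]

/-- The trace at the origin. -/
noncomputable def tr (A : L2 Γ →L[ℝ] L2 Γ) : ℝ := A (δ 1) 1

lemma tr_eq_inner (A : L2 Γ →L[ℝ] L2 Γ) : tr A = ⟪δ (1 : Γ), A (δ 1)⟫_ℝ := (inner_δ _ _).symm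

omit [Group Γ] in
lemma δ_apply (x y : Γ) : δ x y = if y = x then (1 : ℝ) else 0 := by
  rcases eq_or_ne y x with rfl | h <;> simp [δ, *]

lemma lmul_δ (g x : Γ) : lmul g (δ x) = δ (g⁻¹ * x) := by
  ext y
  simp [δ_apply, eq_inv_mul_iff_mul_eq]

/-- An operator as a sum of its matrix entries. -/
lemma apply_one_eq (A : L2 Γ →L[ℝ] L2 Γ) (f : L2 Γ) :
    HasSum (fun x => f x * A (δ x) 1) (A f 1) := by
  have h := (lp.hasSum_single (by simp) f).mapL ((innerSL ℝ (δ (1 : Γ))).comp A)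
  simp only [ContinuousLinearMap.coe_comp, Function.comp_apply, innerSL_apply_apply, inner_δ] at h
  refine h.congr_fun fun x => ?_
  rw [show lp.single (E := fun _ : Γ => ℝ) 2 x (f x) = f x • δ x from by
    rw [δ, ← lp.single_smul, smul_eq_mul, mul_one], map_smul]
  simp

/-- The trace is cyclic on equivariant operators. -/
lemma tr_mul_comm {A B : L2 Γ →L[ℝ] L2 Γ} (hA : Equivariant A) (hB : Equivariant B) :
    tr (A * B) = tr (B * A) := by
  have key : ∀ {C : L2 Γ →L[ℝ] L2 Γ}, Equivariant C → ∀ x, C (δ x) 1 = C (δ 1) x⁻¹ := by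
    intro C hC x
    have := hC x⁻¹ (δ 1)
    rw [lmul_δ, inv_inv, mul_one] at this
    rw [this, lmul_apply, mul_one]
  have h1 := (apply_one_eq A (B (δ 1))).tsum_eq
  have h2 := (apply_one_eq B (A (δ 1))).tsum_eq
  show A (B (δ 1)) 1 = B (A (δ 1)) 1
  rw [← h1, ← h2, ← (Equiv.inv Γ).tsum_eq fun x => A (δ 1) x * B (δ x) 1]
  refine tsum_congr fun x => ?_
  simp only [Equiv.inv_apply]
  rw [key hA, key hB x⁻¹, inv_inv, mul_comm]

/-- The trace as a continuous functional. -/
noncomputable def trL : (L2 Γ →L[ℝ] L2 Γ) →L[ℝ] ℝ :=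
  (innerSL ℝ (δ (1 : Γ))).comp (ContinuousLinearMap.apply ℝ (L2 Γ) (δ 1))

@[simp] lemma trL_apply (A : L2 Γ →L[ℝ] L2 Γ) : trL A = tr A := (tr_eq_inner A).symm

/-- Symmetry for the inner product. -/
def Symm (A : L2 Γ →L[ℝ] L2 Γ) : Prop := ∀ f g, ⟪A f, g⟫_ℝ = ⟪f, A g⟫_ℝ

omit [Group Γ] [DecidableEq Γ] in
lemma Symm.pow_apply {A : L2 Γ →L[ℝ] L2 Γ} (hA : Symm A) :
    ∀ (n : ℕ) f g, ⟪(A ^ n) f, g⟫_ℝ = ⟪f, (A ^ n) g⟫_ℝ
  | 0, f, g => rfl
  | n + 1, f, g => by
    rw [pow_succ, mul_apply_eq_comp, hA.pow_apply n, hA]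
    rw [← mul_apply_eq_comp, ← pow_succ']
    rfl

/-- Traces of odd powers are monotone in the form order. -/
theorem tr_odd_pow_mono {A B : L2 Γ →L[ℝ] L2 Γ} (hA : Equivariant A) (hB : Equivariant B)
    (sA : Symm A) (sB : Symm B) (hle : ∀ f, ⟪f, A f⟫_ℝ ≤ ⟪f, B f⟫_ℝ) (n : ℕ) :
    tr (A ^ (2 * n + 1)) ≤ tr (B ^ (2 * n + 1)) := by
  set D := B - A
  set X : ℝ → L2 Γ →L[ℝ] L2 Γ := fun t => A + t • D
  have hX : ∀ t, HasDerivAt X D t := fun t => by
    simpa [X] using ((hasDerivAt_id t).smul_const D).const_add A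
  have hd : ∀ t, HasDerivAt (fun t => trL (X t ^ (2 * n + 1)))
      (trL (∑ i ∈ range (2 * n + 1), X t ^ ((2 * n + 1).pred - i) * D * X t ^ i)) t := fun t =>
    trL.hasFDerivAt.comp_hasDerivAt t ((hX t).fun_pow' (2 * n + 1))
  have hmono : Monotone fun t => trL (X t ^ (2 * n + 1)) := by
    refine monotone_of_hasDerivAt_nonneg hd fun t => ?_
    show 0 ≤ trL _
    rw [map_sum]
    refine sum_nonneg fun i hi => ?_
    have hi' : i ≤ 2 * n := by have := mem_range.1 hi; omega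
    have hXe : Equivariant (X t) := hA.add ((hB.sub hA).smul t)
    have hDe : Equivariant D := hB.sub hA
    have hXs : Symm (X t) := fun f g => by
      simp only [X, D, add_apply, smul_apply, sub_apply, inner_add_left, inner_add_right,
        real_inner_smul_left, real_inner_smul_right, inner_sub_left, inner_sub_right, sA f g,
        sB f g]
    rw [trL_apply, tr_mul_comm ((hXe.pow _).mul hDe) (hXe.pow i), ← mul_assoc, ← pow_add,
      show i + ((2 * n + 1).pred - i) = n + n by simp only [Nat.pred_eq_sub_one]; omega,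
      pow_add, mul_assoc, tr_mul_comm (hXe.pow n) ((hXe.pow n).mul hDe), tr_eq_inner,
      mul_apply_eq_comp, mul_apply_eq_comp, ← hXs.pow_apply]
    simp only [D, sub_apply, inner_sub_right]
    linarith [hle ((X t ^ n) (δ 1))]
  have := hmono zero_le_one
  simpa [X, D] using this

/-- Traces of even powers lie below the neighbouring odd ones. -/
theorem tr_even_pow_le {A : L2 Γ →L[ℝ] L2 Γ} (sA : Symm A) (h0 : ∀ f, 0 ≤ ⟪f, A f⟫_ℝ) (n : ℕ)
    (s : ℝ) :
    2 * s * tr (A ^ (2 * n + 2)) ≤ s ^ 2 * tr (A ^ (2 * n + 1)) + tr (A ^ (2 * n + 3)) := by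
  have hp : ∀ i j, ⟪(A ^ i) (δ (1 : Γ)), (A ^ j) (δ 1)⟫_ℝ = tr (A ^ (i + j)) := fun i j => by
    rw [sA.pow_apply, tr_eq_inner, pow_add, mul_apply_eq_comp]
  have h := h0 (s • (A ^ n) (δ (1 : Γ)) - (A ^ (n + 1)) (δ 1))
  have e : ∀ j, A ((A ^ j) (δ (1 : Γ))) = (A ^ (j + 1)) (δ 1) := fun j => by
    rw [pow_succ' A j]; rfl
  simp only [map_sub, map_smul, e, inner_sub_left, inner_sub_right, real_inner_smul_left,
    real_inner_smul_right, hp] at h
  rw [show n + (n + 1) = 2 * n + 1 by ring, show n + (n + 1 + 1) = 2 * n + 2 by ring,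
    show n + 1 + (n + 1) = 2 * n + 2 by ring, show n + 1 + (n + 1 + 1) = 2 * n + 3 by ring] at h
  linarith

omit [Group Γ] [DecidableEq Γ] in
/-- A lower bound on an inverse is an upper bound on the operator. -/
theorem form_le_of_inv {T M G : L2 Γ →L[ℝ] L2 Γ} (sM : Symm M) (hM0 : ∀ f, 0 ≤ ⟪f, M f⟫_ℝ)
    (hMG : ∀ f, M (G f) = f) {c : ℝ} (hc : 0 ≤ c) (f : L2 Γ)
    (h : c * ⟪T f, M (T f)⟫_ℝ ≤ ⟪T f, f⟫_ℝ) : c * ⟪f, T f⟫_ℝ ≤ ⟪f, G f⟫_ℝ := by
  have h2 := hM0 (c • T f - G f)
  simp only [map_sub, map_smul, hMG, inner_sub_left, inner_sub_right, real_inner_smul_left,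
    real_inner_smul_right] at h2
  rw [← sM (G f) (T f), hMG, real_inner_comm (T f) f, real_inner_comm f (G f)] at h2
  nlinarith [mul_le_mul_of_nonneg_left h hc, real_inner_comm f (T f)]

/-- One step of the lazy walk, as an operator. -/
noncomputable def lazyOp (T : Finset Γ) : L2 Γ →L[ℝ] L2 Γ :=
  (2 : ℝ)⁻¹ • (1 + (#T : ℝ)⁻¹ • ∑ t ∈ T, rmul t)

omit [DecidableEq Γ] in
lemma lazyOp_apply (T : Finset Γ) (f : L2 Γ) (x : Γ) :
    lazyOp T f x = Return.lazy T (fun y => f y) x := by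
  simp only [lazyOp, smul_apply, add_apply, one_apply_eq_self,
    _root_.sum_apply, lp.coeFn_smul, lp.coeFn_add, Pi.smul_apply, Pi.add_apply,
    smul_eq_mul, Return.lazy, Return.avg, lp.coeFn_sum, Finset.sum_apply, rmul_apply]
  ring

omit [DecidableEq Γ] in
lemma equivariant_lazyOp (T : Finset Γ) : Equivariant (lazyOp T) :=
  (Equivariant.one.add ((Equivariant.sum T equivariant_rmul).smul _)).smul _

omit [DecidableEq Γ] in
lemma inner_rmul (t : Γ) (f g : L2 Γ) : ⟪rmul t f, g⟫_ℝ = ⟪f, rmul t⁻¹ g⟫_ℝ := by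
  rw [lp.inner_eq_tsum, lp.inner_eq_tsum, ← (Equiv.mulRight t).tsum_eq fun x => ⟪f x, rmul t⁻¹ g x⟫_ℝ]
  exact tsum_congr fun x => by simp

omit [DecidableEq Γ] in
lemma symm_lazyOp {T : Finset Γ} (hT : ∀ t ∈ T, t⁻¹ ∈ T) : Symm (lazyOp T) := fun f g => by
  simp only [lazyOp, smul_apply, add_apply, one_apply_eq_self,
    _root_.sum_apply, real_inner_smul_left, real_inner_smul_right, inner_add_left,
    inner_add_right, sum_inner, inner_sum, inner_rmul]
  congr 3
  exact sum_nbij' (·⁻¹) (·⁻¹) hT hT (by simp) (by simp) fun t _ => rfl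

omit [DecidableEq Γ] in
lemma norm_lazyOp_le (T : Finset Γ) : ‖lazyOp T‖ ≤ 1 := by
  rw [lazyOp, norm_smul]
  have h2 : ‖(#T : ℝ)⁻¹ • ∑ t ∈ T, rmul t‖ ≤ 1 := by
    rw [norm_smul, Real.norm_of_nonneg (by positivity)]
    refine (mul_le_mul_of_nonneg_left ((norm_sum_le _ _).trans
      (sum_le_card_nsmul T _ 1 fun t _ => norm_rmul_le t)) (by positivity)).trans ?_
    rw [nsmul_eq_mul, mul_one]
    exact inv_mul_le_one
  have h1 : ‖(1 : L2 Γ →L[ℝ] L2 Γ)‖ ≤ 1 := ContinuousLinearMap.norm_id_le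
  rw [Real.norm_of_nonneg (by norm_num)]
  linarith [norm_add_le (1 : L2 Γ →L[ℝ] L2 Γ) ((#T : ℝ)⁻¹ • ∑ t ∈ T, rmul t)]

lemma tr_lazyOp_pow (T : Finset Γ) (n : ℕ) : tr (lazyOp T ^ n) = Return.walk T n 1 := by
  suffices ∀ x, (lazyOp T ^ n) (δ 1) x = Return.walk T n x from this 1
  induction n with
  | zero =>
    intro x
    rcases eq_or_ne x 1 with rfl | h <;> simp [Return.walk, δ_apply, *]
  | succ n ih =>
    intro x
    rw [pow_succ', mul_apply_eq_comp, lazyOp_apply]
    simp only [funext ih, Return.walk]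

/-- The regularised operator `1 - P + η`, where `P` is the average over `T`. -/
noncomputable def lap (T : Finset Γ) (η : ℝ) : L2 Γ →L[ℝ] L2 Γ :=
  (2 + η) • (1 : L2 Γ →L[ℝ] L2 Γ) - (2 : ℝ) • lazyOp T

/-- The regularised Green operator, the inverse of `lap T η`. -/
noncomputable def green (T : Finset Γ) (η : ℝ) : L2 Γ →L[ℝ] L2 Γ :=
  (2 + η)⁻¹ • ∑' n, ((2 / (2 + η)) • lazyOp T) ^ n

omit [DecidableEq Γ] in
lemma norm_scaled_lt (T : Finset Γ) {η : ℝ} (hη : 0 < η) :
    ‖(2 / (2 + η)) • lazyOp T‖ < 1 := by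
  rw [norm_smul]
  rw [Real.norm_of_nonneg (by positivity)]
  have h : 2 / (2 + η) < 1 := by rw [div_lt_one (by linarith)]; linarith
  exact lt_of_le_of_lt (mul_le_of_le_one_right (by positivity) (norm_lazyOp_le T)) h

omit [DecidableEq Γ] in
lemma lap_green (T : Finset Γ) {η : ℝ} (hη : 0 < η) : lap T η * green T η = 1 := by
  have h := mul_neg_geom_series ((2 / (2 + η)) • lazyOp T) (norm_scaled_lt T hη)
  have e : lap T η = (2 + η) • ((1 : L2 Γ →L[ℝ] L2 Γ) - (2 / (2 + η)) • lazyOp T) := by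
    rw [smul_sub, smul_smul, mul_div_cancel₀ _ (by linarith : (2 + η) ≠ 0), lap]
  rw [e, green, smul_mul_smul_comm, h, mul_inv_cancel₀ (by linarith), one_smul]

omit [DecidableEq Γ] in
lemma symm_lap {T : Finset Γ} (hT : ∀ t ∈ T, t⁻¹ ∈ T) (η : ℝ) : Symm (lap T η) := fun f g => by
  simp only [lap, sub_apply, smul_apply, one_apply_eq_self, inner_sub_left,
    inner_sub_right, real_inner_smul_left, real_inner_smul_right, symm_lazyOp hT f g]

omit [DecidableEq Γ] in
lemma lap_nonneg (T : Finset Γ) {η : ℝ} (hη : 0 ≤ η) (f : L2 Γ) : 0 ≤ ⟪f, lap T η f⟫_ℝ := by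
  simp only [lap, sub_apply, smul_apply, one_apply_eq_self, inner_sub_right,
    real_inner_smul_right, real_inner_self_eq_norm_sq]
  have h1 : ⟪f, lazyOp T f⟫_ℝ ≤ ‖f‖ * ‖f‖ := (real_inner_le_norm _ _).trans
    (mul_le_mul_of_nonneg_left ((lazyOp T).le_of_opNorm_le (norm_lazyOp_le T) f |>.trans_eq
      (one_mul _)) (norm_nonneg _))
  nlinarith [norm_nonneg f]

/-- Partial sums of the Green series are dominated by weighted return sums. -/
lemma tr_partial_pow_le (T : Finset Γ) {l : ℝ} (hl0 : 0 ≤ l) (hl1 : l ≤ 1) (N : ℕ) :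
    ∀ m j : ℕ, tr (lazyOp T ^ j * (∑ i ∈ range N, (l • lazyOp T) ^ i) ^ (m + 1))
      ≤ ∑ n ∈ range ((m + 1) * N + 1), ((n + m).choose m : ℝ) * Return.walk T (n + j) 1 := by
  have h0 : ∀ n, 0 ≤ Return.walk T n 1 := fun n => Return.walk_nonneg T n 1
  have e : ∀ m j : ℕ, lazyOp T ^ j * (∑ i ∈ range N, (l • lazyOp T) ^ i) ^ (m + 1)
      = ∑ i ∈ range N, l ^ i • (lazyOp T ^ (j + i) * (∑ i ∈ range N, (l • lazyOp T) ^ i) ^ m) := by
    intro m j
    rw [pow_succ', ← mul_assoc, mul_sum, sum_mul]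
    simp only [smul_pow, mul_smul_comm, smul_mul_assoc, pow_add]
  intro m
  induction m with
  | zero =>
    intro j
    rw [e, ← trL_apply, map_sum]
    simp only [map_smul, trL_apply, smul_eq_mul, pow_zero, mul_one, tr_lazyOp_pow,
      Nat.choose_zero_right, Nat.cast_one, one_mul, zero_add]
    rw [sum_range_succ]
    refine le_trans (sum_le_sum fun i _ => ?_) (le_add_of_nonneg_right (h0 _))
    rw [add_comm j i]
    exact mul_le_of_le_one_left (h0 _) (pow_le_one₀ hl0 hl1)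
  | succ m ih =>
    intro j
    rw [e, ← trL_apply, map_sum]
    simp only [map_smul, trL_apply, smul_eq_mul]
    calc ∑ i ∈ range N, l ^ i * tr (lazyOp T ^ (j + i) * (∑ i ∈ range N, (l • lazyOp T) ^ i) ^ (m + 1))
        ≤ ∑ i ∈ range N, ∑ n ∈ range ((m + 1) * N + 1),
            ((n + m).choose m : ℝ) * Return.walk T ((i + n) + j) 1 := by
          refine sum_le_sum fun i _ => ?_
          refine (mul_le_mul_of_nonneg_left (ih (j + i)) (pow_nonneg hl0 i)).trans ?_
          simp only [show ∀ n, i + n + j = n + (j + i) from fun n => by omega]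
          refine mul_le_of_le_one_left (sum_nonneg fun n _ => mul_nonneg (Nat.cast_nonneg _) (h0 _))
            (pow_le_one₀ hl0 hl1)
      _ = ∑ k ∈ range ((m + 1 + 1) * N + 1), ∑ q ∈ ((range N ×ˢ range ((m + 1) * N + 1)).filter
            fun q => q.1 + q.2 = k), ((q.2 + m).choose m : ℝ) * Return.walk T ((q.1 + q.2) + j) 1 := by
          rw [← sum_product' (f := fun i n : ℕ =>
            ((n + m).choose m : ℝ) * Return.walk T ((i + n) + j) 1)]
          refine (sum_fiberwise_of_maps_to (fun q hq => ?_) _).symm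
          obtain ⟨h1, h2⟩ := mem_product.1 hq
          rw [mem_range] at h1 h2 ⊢
          rw [add_mul (m + 1), one_mul]
          omega
      _ ≤ ∑ k ∈ range ((m + 1 + 1) * N + 1),
            ((k + (m + 1)).choose (m + 1) : ℝ) * Return.walk T (k + j) 1 := by
          refine sum_le_sum fun k _ => ?_
          rw [← add_assoc, ← Nat.sum_range_add_choose k m, Nat.cast_sum, sum_mul]
          refine le_trans ?_ (sum_le_sum_of_subset_of_nonneg (s := ((range N ×ˢ
            range ((m + 1) * N + 1)).filter fun q => q.1 + q.2 = k).image Prod.snd)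
            (fun n hn => ?_) fun n _ _ => mul_nonneg (Nat.cast_nonneg _) (h0 _))
          · refine le_of_eq ?_
            rw [sum_image fun a ha b hb hab => ?_]
            · exact sum_congr rfl fun q hq => by rw [(mem_filter.1 hq).2]
            · have h1 : a.1 + a.2 = k := (mem_filter.1 ha).2
              have h2 : b.1 + b.2 = k := (mem_filter.1 hb).2
              ext <;> omega
          · obtain ⟨q, hq, rfl⟩ := mem_image.1 hn
            have := (mem_filter.1 hq).2
            exact mem_range.2 (by omega)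

/-- The traces of powers of the Green operator are bounded by weighted return sums. -/
theorem tr_green_pow_le (T : Finset Γ) {η : ℝ} (hη : 0 < η) (m : ℕ) {C : ℝ}
    (hC : ∀ N, ∑ n ∈ range N, ((n + m).choose m : ℝ) * Return.walk T n 1 ≤ C) :
    tr (green T η ^ (m + 1)) ≤ (2⁻¹ : ℝ) ^ (m + 1) * C := by
  set x := (2 / (2 + η)) • lazyOp T
  have hs : Summable fun n => x ^ n := summable_geometric_of_norm_lt_one (norm_scaled_lt T hη)
  have hlim : Tendsto (fun N => trL ((∑ i ∈ range N, x ^ i) ^ (m + 1))) atTop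
      (𝓝 (trL ((∑' n, x ^ n) ^ (m + 1)))) :=
    ((trL.continuous.comp (continuous_pow (m + 1))).tendsto _).comp hs.hasSum.tendsto_sum_nat
  have hb : trL ((∑' n, x ^ n) ^ (m + 1)) ≤ C := le_of_tendsto' hlim fun N => by
    rw [trL_apply]
    have := tr_partial_pow_le T (l := 2 / (2 + η)) (by positivity)
      (by rw [div_le_one (by linarith)]; linarith) N m 0
    simp only [pow_zero, one_mul, add_zero] at this
    exact this.trans (hC _)
  have hC0 : 0 ≤ C := le_trans (by simp) (hC 0)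
  rw [← trL_apply, green, smul_pow, map_smul, smul_eq_mul]
  calc ((2 + η)⁻¹) ^ (m + 1) * trL ((∑' n, x ^ n) ^ (m + 1))
      ≤ ((2 + η)⁻¹) ^ (m + 1) * C := by gcongr
    _ ≤ (2⁻¹ : ℝ) ^ (m + 1) * C := by gcongr; linarith

omit [DecidableEq Γ] in
lemma equivariant_green (T : Finset Γ) {η : ℝ} (hη : 0 < η) : Equivariant (green T η) := by
  have hs : Summable fun n => ((2 / (2 + η)) • lazyOp T) ^ n :=
    summable_geometric_of_norm_lt_one (norm_scaled_lt T hη)
  refine Equivariant.smul (fun g f => ?_) _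
  have h1 := (hs.hasSum.mapL (ContinuousLinearMap.apply ℝ (L2 Γ) (lmul g f))).tsum_eq
  have h2 := ((hs.hasSum.mapL (ContinuousLinearMap.apply ℝ (L2 Γ) f)).mapL (lmul g)).tsum_eq
  simp only [ContinuousLinearMap.apply_apply] at h1 h2
  rw [← h1, ← h2]
  exact tsum_congr fun n => ((equivariant_lazyOp T).smul _).pow n g f

omit [DecidableEq Γ] in
lemma symm_green {T : Finset Γ} (hT : ∀ t ∈ T, t⁻¹ ∈ T) {η : ℝ} (hη : 0 < η) :
    Symm (green T η) := fun f g => by
  have h : ∀ u, lap T η (green T η u) = u := fun u =>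
    congrFun (congrArg DFunLike.coe (lap_green T hη)) u
  calc ⟪green T η f, g⟫_ℝ = ⟪green T η f, lap T η (green T η g)⟫_ℝ := by rw [h]
    _ = ⟪lap T η (green T η f), green T η g⟫_ℝ := (symm_lap hT η _ _).symm
    _ = _ := by rw [h]

/-- A form bound by the Green operator gives trace bounds on odd powers. -/
theorem tr_odd_pow_le_green {T : Finset Γ} (hT : ∀ t ∈ T, t⁻¹ ∈ T) {η : ℝ} (hη : 0 < η)
    {A : L2 Γ →L[ℝ] L2 Γ} (hA : Equivariant A) (sA : Symm A) {β : ℝ} (hβ : 0 ≤ β)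
    (hle : ∀ f, ⟪f, A f⟫_ℝ ≤ β * ⟪f, green T η f⟫_ℝ) (n : ℕ) {C : ℝ}
    (hC : ∀ N, ∑ k ∈ range N, ((k + 2 * n).choose (2 * n) : ℝ) * Return.walk T k 1 ≤ C) :
    tr (A ^ (2 * n + 1)) ≤ (β / 2) ^ (2 * n + 1) * C := by
  have h := tr_odd_pow_mono hA ((equivariant_green T hη).smul β) sA
    (fun f g => by simp [real_inner_smul_left, real_inner_smul_right, symm_green hT hη f g])
    (fun f => by simpa [real_inner_smul_right] using hle f) n
  refine h.trans ?_
  rw [smul_pow, ← trL_apply, map_smul, smul_eq_mul, trL_apply, div_eq_mul_inv, mul_pow, mul_assoc]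
  exact mul_le_mul_of_nonneg_left (tr_green_pow_le T hη _ hC) (by positivity)

/-- Convolution with a summable kernel. -/
noncomputable def op (a : Γ → ℝ) : L2 Γ →L[ℝ] L2 Γ := ∑' t, a t • rmul t

omit [DecidableEq Γ] in
lemma summable_op {a : Γ → ℝ} (ha : Summable a) : Summable fun t => a t • rmul t :=
  Summable.of_norm_bounded ha.abs fun t => by
    rw [norm_smul, Real.norm_eq_abs]
    exact mul_le_of_le_one_right (abs_nonneg _) (norm_rmul_le t)

omit [DecidableEq Γ] in
lemma op_apply {a : Γ → ℝ} (ha : Summable a) (f : L2 Γ) (x : Γ) :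
    op a f x = ∑' t, a t * f (x * t) := by
  classical
  have h := ((summable_op ha).hasSum.mapL (ContinuousLinearMap.apply ℝ (L2 Γ) f)).mapL
    (innerSL ℝ (δ x))
  simp only [ContinuousLinearMap.apply_apply, innerSL_apply_apply, inner_δ, smul_apply,
    lp.coeFn_smul, Pi.smul_apply, smul_eq_mul, rmul_apply] at h
  exact h.tsum_eq.symm

omit [DecidableEq Γ] in
lemma norm_op_le {a : Γ → ℝ} (ha : Summable a) : ‖op a‖ ≤ ∑' t, |a t| :=
  tsum_of_norm_bounded ha.abs.hasSum fun t => by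
    rw [norm_smul, Real.norm_eq_abs]
    exact mul_le_of_le_one_right (abs_nonneg _) (norm_rmul_le t)

omit [DecidableEq Γ] in
lemma equivariant_op {a : Γ → ℝ} (ha : Summable a) : Equivariant (op a) := fun g f => by
  ext x
  simp [op_apply ha, mul_assoc]

lemma op_δ {a : Γ → ℝ} (ha : Summable a) (x y : Γ) : op a (δ y) x = a (x⁻¹ * y) := by
  rw [op_apply ha, tsum_eq_single (x⁻¹ * y) fun t ht => ?_]
  · simp [δ_apply]
  · simp [δ_apply, ← eq_inv_mul_iff_mul_eq, ht]

omit [DecidableEq Γ] in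
lemma symm_op {a : Γ → ℝ} (ha : Summable a) (hsym : ∀ t, a t⁻¹ = a t) : Symm (op a) := by
  intro f g
  have h1 := ((summable_op ha).hasSum.mapL (ContinuousLinearMap.apply ℝ (L2 Γ) f)).mapL
    (innerSL ℝ g)
  have h2 := ((summable_op ha).hasSum.mapL (ContinuousLinearMap.apply ℝ (L2 Γ) g)).mapL
    (innerSL ℝ f)
  simp only [ContinuousLinearMap.apply_apply, innerSL_apply_apply, smul_apply,
    real_inner_smul_right] at h1 h2
  rw [real_inner_comm g, op, ← h1.tsum_eq, ← h2.tsum_eq, ← (Equiv.inv Γ).tsum_eq]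
  refine tsum_congr fun t => ?_
  rw [Equiv.inv_apply, hsym, real_inner_comm _ g, inner_rmul, inv_inv]

end Vale.Agent.P151.Ops
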