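import Vale.Agent.P151.Defs
import Vale.Agent.P151.Trace.Ops
import Vale.Agent.P165.Basic

/-!
The two-point function of a Cayley graph as a convolution operator, and the operator form of the
lace identity.
-/

namespace Vale.Agent.P151.Trace

open MeasureTheory Finset SimpleGraph
open Vale.Agent.P165 (perc)
open Vale.Agent.P151.Ops
open scoped ENNReal InnerProductSpace

variable {Γ : Type} [Group Γ] {S : Finset Γ} {p : unitInterval}

/-- Left translation as an automorphism of the Cayley graph. -/
def leftIso (hS : Gen S) (g : Γ) : cg S ≃g cg S where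
  toEquiv := Equiv.mulLeft g
  map_rel_iff' := by
    intro a b
    simp [hS.adj_iff, mul_assoc]

lemma conn_comap (φ : cg S ≃g cg S) {ω : Sym2 Γ → Bool} {x y : Γ}
    (h : Conn (cg S) (fun e => ω (Sym2.map φ e)) x y) : Conn (cg S) ω (φ x) (φ y) := by
  obtain ⟨q, hq⟩ := h
  refine ⟨q.map φ.toHom, fun e he => ?_⟩
  rw [Walk.edges_map, List.mem_map] at he
  obtain ⟨f, hf, rfl⟩ := he
  exact hq f hf

lemma conn_comap_iff (φ : cg S ≃g cg S) {ω : Sym2 Γ → Bool} {x y : Γ} :
    Conn (cg S) (fun e => ω (Sym2.map φ e)) x y ↔ Conn (cg S) ω (φ x) (φ y) := by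
  refine ⟨conn_comap φ, fun h => ?_⟩
  have h' : Conn (cg S) (fun e => ω (Sym2.map φ (Sym2.map φ.symm e))) (φ x) (φ y) := by
    simpa [Sym2.map_map, Function.comp_def] using h
  simpa using conn_comap (ω := fun e => ω (Sym2.map φ e)) φ.symm h'

lemma two_mul_left [Countable Γ] (hS : Gen S) (g x y : Γ) :
    two S p (g * x) (g * y) = two S p x y := by
  have hm : Measurable fun (ω : Sym2 Γ → Bool) e => ω (Sym2.map (leftIso hS g) e) :=
    measurable_pi_lambda _ fun e => measurable_pi_apply _
  show perc Γ p {ω | Conn (cg S) ω (g * x) (g * y)} = perc Γ p {ω | Conn (cg S) ω x y}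
  conv_rhs => rw [← P165.perc_map (p := p) (leftIso hS g).toEquiv]
  rw [Measure.map_apply (measurable_pi_lambda _ fun e => measurable_pi_apply _)
    (measurableSet_conn x y)]
  congr 1
  ext ω
  exact (conn_comap_iff (leftIso hS g)).symm

/-- The two-point function seen from the identity, as a real function. -/
noncomputable def ker (S : Finset Γ) (p : unitInterval) (x : Γ) : ℝ := (two S p 1 x).toReal

lemma ker_nonneg (x : Γ) : 0 ≤ ker S p x := ENNReal.toReal_nonneg

lemma summable_ker (h : chi S p ≠ ⊤) : Summable (ker S p) := ENNReal.summable_toReal h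

variable [Countable Γ] (hS : Gen S)

include hS

lemma two_eq (x y : Γ) : two S p x y = two S p 1 (x⁻¹ * y) := by
  rw [← two_mul_left hS x 1, mul_one, mul_inv_cancel_left]

lemma ker_inv (x : Γ) : ker S p x⁻¹ = ker S p x := by
  rw [ker, ker, ← two_mul_left hS x 1 x⁻¹, mul_one, mul_inv_cancel]
  exact congrArg ENNReal.toReal (tau_symm x 1)

omit hS [Countable Γ] in
lemma two_ne_top (x y : Γ) : two S p x y ≠ ⊤ :=
  ne_top_of_le_ne_top ENNReal.one_ne_top (tau_le_one x y)

variable [DecidableEq Γ]

/-- The coefficient `δ + q`. -/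
def coef (q : Γ → ℝ) (y : Γ) : ℝ := (if y = 1 then 1 else 0) + q y

omit hS [Countable Γ] in
lemma hasSum_coef {q : Γ → ℝ} (hq : Summable q) : HasSum (coef q) (1 + ∑' y, q y) := by
  exact (hasSum_ite_eq 1 (1 : ℝ)).add hq.hasSum

omit hS [Countable Γ] in
lemma op_coef_apply {q : Γ → ℝ} (hq : Summable q) (f : L2 Γ) :
    op (coef q) f = f + op q f := by
  ext x
  have hs : Summable fun y => q y * f (x * y) := by
    refine Summable.of_norm_bounded (hq.abs.mul_right ‖f‖) fun y => ?_
    rw [Real.norm_eq_abs, abs_mul]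
    exact mul_le_mul_of_nonneg_left (lp.norm_apply_le_norm (by norm_num) f _) (abs_nonneg _)
  have h1 : Summable fun y : Γ => if y = 1 then f (x * y) else 0 :=
    summable_of_ne_finset_zero (s := {1}) (by simp +contextual)
  rw [lp.coeFn_add, Pi.add_apply, op_apply (hasSum_coef hq).summable, op_apply hq]
  simp only [coef, add_mul, ite_mul, one_mul, zero_mul]
  rw [h1.tsum_add hs, tsum_eq_single 1 fun y hy => if_neg hy]
  simp

omit hS [Countable Γ] in
/-- Two operators agree if they are equivariant and agree at the identity. -/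
lemma ext_of_equivariant {A B : L2 Γ →L[ℝ] L2 Γ} (hA : Equivariant A) (hB : Equivariant B)
    (h : A (δ 1) = B (δ 1)) : A = B := by
  have hx : ∀ x, A (δ x) = B (δ x) := fun x => by
    have e : δ x = lmul x⁻¹ (δ (1 : Γ)) := by rw [lmul_δ, inv_inv, mul_one]
    rw [e, hA, hB, h]
  refine ContinuousLinearMap.ext fun f => ?_
  have hsum := lp.hasSum_single (E := fun _ : Γ => ℝ) (p := 2) (by simp) f
  refine (hsum.mapL A).unique ?_
  refine (hsum.mapL B).congr_fun fun x => ?_
  rw [show lp.single (E := fun _ : Γ => ℝ) 2 x (f x) = f x • δ x from by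
    rw [δ, ← lp.single_smul, smul_eq_mul, mul_one], map_smul, map_smul, hx]

/-- The sum of the steps. -/
noncomputable def steps (S : Finset Γ) : L2 Γ →L[ℝ] L2 Γ := ∑ s ∈ S, rmul s

/-- The operator form of the lace identity. -/
lemma op_identity (hfin : chi S p ≠ ⊤) {q : Γ → ℝ} (hq : Summable q)
    (hid : ∀ x, (two S p 1 x).toReal = (if x = 1 then 1 else 0) + q x + (p : ℝ) *
      ∑' y, ((if y = 1 then 1 else 0) + q y) * ∑ s ∈ S, (two S p (y * s) x).toReal) :
    op (ker S p) = op (coef q) * (1 + (p : ℝ) • (steps S * op (ker S p))) := by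
  have ht := summable_ker hfin
  have hc := (hasSum_coef hq).summable
  refine ext_of_equivariant (equivariant_op ht) ((equivariant_op hc).mul (Equivariant.one.add
    (((Equivariant.sum S equivariant_rmul).mul (equivariant_op ht)).smul _))) ?_
  ext x
  have hg : ∀ z, ((1 + (p : ℝ) • (steps S * op (ker S p))) (δ (1 : Γ))) z
      = (if z = 1 then 1 else 0) + (p : ℝ) * ∑ s ∈ S, ker S p (z * s)⁻¹ := by
    intro z
    simp only [steps, add_apply, one_apply_eq_self, smul_apply, mul_apply_eq_comp,
      _root_.sum_apply, lp.coeFn_add, lp.coeFn_smul, lp.coeFn_sum, Pi.add_apply, Pi.smul_apply,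
      Finset.sum_apply, rmul_apply, smul_eq_mul, δ_apply, op_δ ht, mul_one]
  rw [mul_apply_eq_comp, op_apply hc, op_δ ht, mul_one]
  simp only [hg, mul_add]
  have hb : Summable fun y => coef q y * ((p : ℝ) * ∑ s ∈ S, ker S p (x * y * s)⁻¹) := by
    refine Summable.of_norm_bounded (hc.abs.mul_right ((p : ℝ) * S.card)) fun y => ?_
    rw [Real.norm_eq_abs, abs_mul]
    refine mul_le_mul_of_nonneg_left ?_ (abs_nonneg _)
    rw [abs_of_nonneg (mul_nonneg p.2.1 (sum_nonneg fun s _ => ker_nonneg _))]
    refine mul_le_mul_of_nonneg_left ((sum_le_card_nsmul S _ 1 fun s _ => ?_).trans_eq (by simp)) p.2.1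
    rw [← ENNReal.toReal_one]
    exact ENNReal.toReal_mono ENNReal.one_ne_top (tau_le_one _ _)
  have h1 : Summable fun y => coef q y * if x * y = 1 then (1 : ℝ) else 0 :=
    summable_of_ne_finset_zero (s := {x⁻¹}) fun y hy => by
      have : x * y ≠ 1 := fun h => hy (mem_singleton.2 (eq_inv_of_mul_eq_one_right h))
      simp [this]
  rw [h1.tsum_add hb, tsum_eq_single x⁻¹ fun y hy => by
      have : x * y ≠ 1 := fun h => hy (eq_inv_of_mul_eq_one_right h)
      simp [this]]
  rw [mul_inv_cancel, if_pos rfl, mul_one, coef, ker, hid x⁻¹, ← tsum_mul_left]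
  congr 1
  refine tsum_congr fun y => ?_
  rw [coef, mul_left_comm]
  congr 2
  refine sum_congr rfl fun s _ => ?_
  rw [two_eq hS (y * s), ker]
  simp [mul_inv_rev, mul_assoc]

/-- Summing the lace identity over the endpoint. -/
lemma tsum_identity (hfin : chi S p ≠ ⊤) {q : Γ → ℝ} (hq : Summable q)
    (hid : ∀ x, (two S p 1 x).toReal = (if x = 1 then 1 else 0) + q x + (p : ℝ) *
      ∑' y, ((if y = 1 then 1 else 0) + q y) * ∑ s ∈ S, (two S p (y * s) x).toReal) :
    ∑' x, ker S p x = (1 + ∑' y, q y) * (1 + (p : ℝ) * S.card * ∑' x, ker S p x) := by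
  have ht := summable_ker hfin
  have hc := (hasSum_coef hq).summable
  have hF : ∀ s, Summable fun z : Γ × Γ => coef q z.1 * ker S p ((z.1 * s)⁻¹ * z.2) := by
    intro s
    have h0 : Summable fun z : Γ × Γ => coef q z.1 * ker S p z.2 :=
      summable_mul_of_summable_norm hc.norm ht.norm
    let e : Γ × Γ ≃ Γ × Γ :=
      { toFun := fun z => (z.1, (z.1 * s)⁻¹ * z.2)
        invFun := fun z => (z.1, z.1 * s * z.2)
        left_inv := fun z => by simp [mul_assoc]
        right_inv := fun z => by simp [mul_assoc] }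
    exact (e.summable_iff (f := fun z : Γ × Γ => coef q z.1 * ker S p z.2)).2 h0
  have hval : ∀ s, ∑' x, ∑' y, coef q y * ker S p ((y * s)⁻¹ * x)
      = (1 + ∑' y, q y) * ∑' x, ker S p x := by
    intro s
    rw [Summable.tsum_comm (f := fun y x => coef q y * ker S p ((y * s)⁻¹ * x)) (hF s)]
    simp only [tsum_mul_left]
    have e : ∀ y, ∑' x, ker S p ((y * s)⁻¹ * x) = ∑' x, ker S p x := fun y =>
      (Equiv.mulLeft ((y * s)⁻¹)).tsum_eq (ker S p)
    simp only [e]
    rw [tsum_mul_right, (hasSum_coef hq).tsum_eq]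
  have hsum : ∀ s, Summable fun x => ∑' y, coef q y * ker S p ((y * s)⁻¹ * x) := fun s =>
    ((hF s).comp_injective (i := Prod.swap) Prod.swap_injective).prod (f := fun z : Γ × Γ => coef q z.2 * ker S p ((z.2 * s)⁻¹ * z.1))
  have hprod : ∀ s x, Summable fun y => coef q y * ker S p ((y * s)⁻¹ * x) := fun s x =>
    ((hF s).comp_injective (i := Prod.swap) Prod.swap_injective).prod_factor x
  have hrow : ∀ x, ker S p x
      = coef q x + (p : ℝ) * ∑ s ∈ S, ∑' y, coef q y * ker S p ((y * s)⁻¹ * x) := by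
    intro x
    rw [← Summable.tsum_finsetSum fun s _ =>
      (hprod s x), ker, hid x]
    congr 1
    congr 1
    refine tsum_congr fun y => ?_
    rw [mul_sum]
    refine sum_congr rfl fun s _ => ?_
    rw [ker, ← two_eq hS]
    rfl
  conv_lhs => rw [tsum_congr hrow]
  rw [hc.tsum_add (((summable_sum fun s _ => hsum s)).mul_left _), tsum_mul_left,
    Summable.tsum_finsetSum fun s _ => hsum s, sum_congr rfl fun s _ => hval s, sum_const,
    nsmul_eq_mul, (hasSum_coef hq).tsum_eq]
  ring

/-- Matrix entries of powers of the operator are the kernel powers. -/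
lemma kpow_eq (hfin : chi S p ≠ ⊤) (n : ℕ) :
    ∀ x, 0 ≤ (op (ker S p) ^ n) (δ 1) x ∧
      kpow (two S p) n 1 x = ENNReal.ofReal ((op (ker S p) ^ n) (δ 1) x) := by
  have ht := summable_ker hfin
  induction n with
  | zero =>
    intro x
    rcases eq_or_ne x 1 with rfl | h <;> simp [kpow, kone, δ_apply, eq_comm, *]
  | succ n ih =>
    intro x
    set v := (op (ker S p) ^ n) (δ 1)
    have hnn : ∀ t, 0 ≤ ker S p t * v (x * t) := fun t => mul_nonneg (ker_nonneg t) (ih _).1
    have hs : Summable fun t => ker S p t * v (x * t) := by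
      refine Summable.of_norm_bounded (ht.mul_right ‖v‖) fun t => ?_
      rw [Real.norm_eq_abs, abs_mul, abs_of_nonneg (ker_nonneg t)]
      exact mul_le_mul_of_nonneg_left (lp.norm_apply_le_norm (by norm_num) v _) (ker_nonneg t)
    have e : (op (ker S p) ^ (n + 1)) (δ 1) x = ∑' t, ker S p t * v (x * t) := by
      rw [pow_succ', mul_apply_eq_comp, op_apply ht]
    refine ⟨e ▸ tsum_nonneg hnn, ?_⟩
    rw [e, ENNReal.ofReal_tsum_of_nonneg hnn hs]
    show ∑' z, kpow (two S p) n 1 z * two S p z x = _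
    rw [← (Equiv.mulLeft x).tsum_eq fun z => kpow (two S p) n 1 z * two S p z x]
    refine tsum_congr fun t => ?_
    rw [Equiv.coe_mulLeft, (ih (x * t)).2, two_eq hS (x * t), ENNReal.ofReal_mul (ker_nonneg t),
      mul_comm]
    congr 1
    rw [← ker_inv hS t, ker, ENNReal.ofReal_toReal (two_ne_top _ _)]
    simp [mul_assoc]

end Vale.Agent.P151.Trace
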