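import Vale.Agent.P151.Interfaces
import Vale.Agent.P151.Trace.Kernel

/-!
The lace expansion bounds the two-point operator by the Green operator, hence its odd traces by
weighted return sums.
-/

namespace Vale.Agent.P151.Trace

open Finset
open Vale.Agent.P151.Ops
open scoped ENNReal NNReal InnerProductSpace

variable {Γ : Type} [Group Γ] [DecidableEq Γ] {S : Finset Γ} {p : unitInterval}

/-- The length `z ↦ ‖R_z w - w‖`. -/
noncomputable def len (w : L2 Γ) (z : Γ) : ℝ≥0 := ‖rmul z w - w‖₊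

omit [DecidableEq Γ] in
lemma isLen_len (w : L2 Γ) : IsLen (len w) where
  one := by
    have : rmul (1 : Γ) w = w := by ext x; simp
    simp [len, this]
  mul_le x y := by
    have e : rmul (x * y) w - w = rmul x (rmul y w - w) + (rmul x w - w) := by
      ext z
      simp [mul_assoc]
    rw [len, e]
    refine (nnnorm_add_le _ _).trans ?_
    rw [add_comm (len w x)]
    refine add_le_add (le_of_eq ?_) le_rfl
    exact (comp (Equiv.mulRight x)).nnnorm_map _

/-- The form of the step increments. -/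
noncomputable def energy (S : Finset Γ) (f : L2 Γ) : ℝ := ∑ s ∈ S, ‖rmul s f - f‖ ^ 2

omit [DecidableEq Γ] in
lemma energy_nonneg (S : Finset Γ) (f : L2 Γ) : 0 ≤ energy S f :=
  sum_nonneg fun _ _ => sq_nonneg _

omit [DecidableEq Γ] in
lemma norm_rmul (t : Γ) (f : L2 Γ) : ‖rmul t f‖ = ‖f‖ := (comp (Equiv.mulRight t)).norm_map f

omit [DecidableEq Γ] in
lemma inner_steps (S : Finset Γ) (f : L2 Γ) :
    ⟪f, steps S f⟫_ℝ = S.card * ‖f‖ ^ 2 - energy S f / 2 := by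
  have e : ∀ s, ‖rmul s f - f‖ ^ 2 = 2 * ‖f‖ ^ 2 - 2 * ⟪f, rmul s f⟫_ℝ := fun s => by
    rw [norm_sub_sq_real, norm_rmul, real_inner_comm]
    ring
  simp only [energy, e, steps, _root_.sum_apply, inner_sum, sum_sub_distrib, sum_const,
    nsmul_eq_mul, ← mul_sum]
  ring

omit [DecidableEq Γ] in
lemma inner_lap_le (hne : S.Nonempty) (η : ℝ) (f : L2 Γ) :
    ⟪f, lap S η f⟫_ℝ = energy S f / (2 * S.card) + η * ‖f‖ ^ 2 := by
  have hD : (S.card : ℝ) ≠ 0 := Nat.cast_ne_zero.2 (card_ne_zero.2 hne)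
  have h := inner_steps S f
  simp only [lap, lazyOp, sub_apply, smul_apply, add_apply, one_apply_eq_self, inner_sub_right,
    real_inner_smul_right, inner_add_right, real_inner_self_eq_norm_sq]
  rw [show (∑ t ∈ S, rmul t) = steps S from rfl, h]
  field_simp
  ring

omit [DecidableEq Γ] in
/-- Perturbing by a kernel of small mass and spread. -/
lemma perturb {q : Γ → ℝ} (hq : Summable fun x => |q x|) {ε : ℝ} (hε : ∑' x, |q x| ≤ ε)
    (hε0 : 0 < ε) (w : L2 Γ) {M : ℝ} (hs2 : Summable fun x => |q x| * (len w x : ℝ) ^ 2)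
    (hM : ∑' x, |q x| * (len w x : ℝ) ^ 2 ≤ M) :
    ‖op q w - (∑' x, q x) • w‖ ^ 2 ≤ ε * M ∧ |⟪op q w - (∑' x, q x) • w, w⟫_ℝ| ≤ M / 2 := by
  have hq' : Summable q := summable_abs_iff.1 hq
  have h1 := (summable_op hq').hasSum.mapL (ContinuousLinearMap.apply ℝ (L2 Γ) w)
  have h2 := h1.sub (hq'.hasSum.smul_const w)
  simp only [ContinuousLinearMap.apply_apply, smul_apply, ← smul_sub] at h2
  rw [← op] at h2
  set v := op q w - (∑' x, q x) • w
  have hi : ∀ u, HasSum (fun z => q z * ⟪rmul z w - w, u⟫_ℝ) ⟪v, u⟫_ℝ := fun u => by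
    have := h2.mapL (innerSL ℝ u)
    simpa only [innerSL_apply_apply, real_inner_smul_right, real_inner_comm u] using this
  have hlen : ∀ z, (len w z : ℝ) = ‖rmul z w - w‖ := fun z => rfl
  constructor
  · have hv := (hi v).tsum_eq
    rw [real_inner_self_eq_norm_sq] at hv
    have hb : ∀ z, q z * ⟪rmul z w - w, v⟫_ℝ
        ≤ ((1 / ε) * ‖v‖ ^ 2 / 2) * |q z| + (ε / 2) * (|q z| * (len w z : ℝ) ^ 2) := by
      intro z
      calc q z * ⟪rmul z w - w, v⟫_ℝ ≤ |q z| * (‖rmul z w - w‖ * ‖v‖) := by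
            refine (le_abs_self _).trans ?_
            rw [abs_mul]
            exact mul_le_mul_of_nonneg_left (abs_real_inner_le_norm _ _) (abs_nonneg _)
        _ ≤ |q z| * ((1 / ε) * ‖v‖ ^ 2 / 2 + (ε / 2) * (len w z : ℝ) ^ 2) := by
            refine mul_le_mul_of_nonneg_left ?_ (abs_nonneg _)
            rw [hlen]
            have : 0 ≤ (‖v‖ - ε * ‖rmul z w - w‖) ^ 2 / ε := by positivity
            have e : (‖v‖ - ε * ‖rmul z w - w‖) ^ 2 / ε
                = 1 / ε * ‖v‖ ^ 2 - 2 * (‖rmul z w - w‖ * ‖v‖) + ε * ‖rmul z w - w‖ ^ 2 := by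
              field_simp; ring
            linarith
        _ = _ := by ring
    have := (hi v).summable.tsum_le_tsum hb ((hq.mul_left _).add (hs2.mul_left _))
    rw [(hq.mul_left _).tsum_add (hs2.mul_left _), tsum_mul_left, tsum_mul_left, hv] at this
    have h3 : (1 / ε * ‖v‖ ^ 2 / 2) * ∑' x, |q x| ≤ (1 / ε * ‖v‖ ^ 2 / 2) * ε := by gcongr
    have h4 : (ε / 2) * ∑' x, |q x| * (len w x : ℝ) ^ 2 ≤ (ε / 2) * M := by gcongr
    have h5 : (1 / ε * ‖v‖ ^ 2 / 2) * ε = ‖v‖ ^ 2 / 2 := by field_simp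
    linarith
  · have hw := (hi w).norm_le_of_bounded (hs2.hasSum.div_const 2) fun z => ?_
    · exact hw.trans (by linarith)
    · have e : ⟪rmul z w - w, w⟫_ℝ = -((len w z : ℝ) ^ 2 / 2) := by
        rw [hlen, inner_sub_left, norm_sub_sq_real, norm_rmul, real_inner_self_eq_norm_sq]
        ring
      rw [Real.norm_eq_abs, abs_mul, e, abs_neg, abs_of_nonneg (by positivity : (0 : ℝ) ≤ _ / 2)]
      exact le_of_eq (by ring)

lemma scalar {q0 a b hw hh Ew Eh : ℝ} (hq : 19 / 20 ≤ q0) (ha : a ≤ 1 / 20 * Ew / 2)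
    (hb : b ≤ 1 / 20 * (1 / 20 * Ew)) (hE : Ew ≤ 3 * Eh) (hE0 : 0 ≤ Eh) (hw0 : 0 ≤ Ew)
    (h : q0 * hw - hh = -(q0 * a) - b) : -(Eh / 4) ≤ hw - hh * (1 / q0) := by
  have h0 : 0 < q0 := by linarith
  have h3 : hw - hh * (1 / q0) = -a - b / q0 := by
    field_simp
    linarith
  have h4 : b / q0 ≤ 1 / 19 * (1 / 20 * Ew) + 0 := by
    rw [div_le_iff₀ h0]
    nlinarith
  linarith

omit [DecidableEq Γ] in
lemma increments {q0 : ℝ} (hq0' : 19 / 20 ≤ q0) {h w v : L2 Γ} (hv : h = q0 • w + v)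
    (hpD : (p : ℝ) * (S.card : ℝ) ≤ 3)
    (hv1 : ‖v‖ ^ 2 ≤ 1 / 20 * (1 / 20 * ((p : ℝ) * energy S w))) :
    (p : ℝ) * energy S w ≤ 3 * ((p : ℝ) * energy S h) := by
  have hq00 : 0 < q0 := by linarith
  set D : ℝ := (S.card : ℝ)
  have hw0 : 0 ≤ (p : ℝ) * energy S w := mul_nonneg p.2.1 (energy_nonneg S w)
  have hh0 : 0 ≤ (p : ℝ) * energy S h := mul_nonneg p.2.1 (energy_nonneg S h)
  have hs : ∀ s, q0 ^ 2 * ‖rmul s w - w‖ ^ 2 ≤ 2 * ‖rmul s h - h‖ ^ 2 + 8 * ‖v‖ ^ 2 := by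
    intro s
    have e : q0 • (rmul s w - w) = (rmul s h - h) - (rmul s v - v) := by
      rw [hv, map_add, map_smul, smul_sub]
      abel
    have h1 := congrArg norm e
    rw [norm_smul, Real.norm_of_nonneg hq00.le] at h1
    have h2 : ‖rmul s v - v‖ ≤ 2 * ‖v‖ := (norm_sub_le _ _).trans (by rw [norm_rmul]; linarith)
    have h3 : q0 * ‖rmul s w - w‖ ≤ ‖rmul s h - h‖ + 2 * ‖v‖ := by
      rw [h1]
      exact (norm_sub_le _ _).trans (by linarith)
    have h4 := pow_le_pow_left₀ (by positivity) h3 2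
    nlinarith [sq_nonneg (‖rmul s h - h‖ - 2 * ‖v‖)]
  have h5 : q0 ^ 2 * ((p : ℝ) * energy S w) ≤ 2 * ((p : ℝ) * energy S h) + 8 * ((p : ℝ) * D) * ‖v‖ ^ 2 := by
    calc q0 ^ 2 * ((p : ℝ) * energy S w) = (p : ℝ) * ∑ s ∈ S, q0 ^ 2 * ‖rmul s w - w‖ ^ 2 := by
          rw [← mul_sum, energy]; ring
      _ ≤ (p : ℝ) * ∑ s ∈ S, (2 * ‖rmul s h - h‖ ^ 2 + 8 * ‖v‖ ^ 2) :=
          mul_le_mul_of_nonneg_left (sum_le_sum fun s _ => hs s) p.2.1
      _ = _ := by
          rw [sum_add_distrib, ← mul_sum, sum_const, nsmul_eq_mul, energy]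
          ring
  have h6 : 8 * ((p : ℝ) * D) * ‖v‖ ^ 2 ≤ 8 * 3 * (1 / 20 * (1 / 20 * ((p : ℝ) * energy S w))) := by
    gcongr
  have h7 : (19 / 20 : ℝ) ^ 2 * ((p : ℝ) * energy S w) ≤ q0 ^ 2 * ((p : ℝ) * energy S w) := by gcongr
  nlinarith

lemma low_end {D χ q0 e n Eh x pD : ℝ} (hD : 1 ≤ D) (hq : q0 ≤ 21 / 20) (hq00 : 0 < q0)
    (hinv : 1 / q0 - pD = 1 / χ) (he0 : 0 ≤ e) (he : e ≤ D * (4 * n)) (hn : 0 ≤ n)
    (hχ : 0 < χ) (hpD0 : 0 ≤ pD) (hEh : Eh * D = pD * e) (hx : n / χ + Eh / 4 ≤ x) :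
    1 / 16 * (e / (2 * D) + 8 / χ * n) ≤ x := by
  have e1 : (1 / 16 : ℝ) * (8 / χ * n) = n / χ / 2 := by ring
  have hn' : 0 ≤ n / χ := by positivity
  have hEh0 : 1 / 2 ≤ pD → e / (2 * D) ≤ Eh := by
    intro hbig
    rw [div_le_iff₀ (by linarith)]
    nlinarith
  rcases le_or_gt (1 / 2) pD with hbig | hsmall
  · have := hEh0 hbig
    have : 0 ≤ e / (2 * D) := by positivity
    linarith
  · have h1 : e / (2 * D) ≤ 2 * n := by
      rw [div_le_iff₀ (by linarith)]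
      linarith
    have h2 : 20 / 21 ≤ 1 / q0 := by rw [div_le_div_iff₀ (by norm_num) hq00]; linarith
    have h3 : n * (20 / 21 - 1 / 2) ≤ n / χ := by
      rw [div_eq_mul_one_div n χ]
      exact mul_le_mul_of_nonneg_left (by linarith) hn
    have : 0 ≤ Eh := by nlinarith [mul_nonneg hpD0 he0]
    linarith

variable [Countable Γ]

/-- The key form inequality: the two-point operator is below a multiple of the Green operator. -/
theorem form_bound (hS : Gen S) (hne : S.Nonempty) (hpD : (p : ℝ) * S.card ≤ 3)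
    (hfin : chi S p ≠ ⊤) (hlace : Lace S p (1 / 20)) :
    (p : ℝ) * S.card ≤ 2 ∧ ∃ η : ℝ, 0 < η ∧
      ∀ f : L2 Γ, ⟪f, op (ker S p) f⟫_ℝ ≤ 16 * ⟪f, green S η f⟫_ℝ := by
  obtain ⟨q, hqa, hqε, hid₀, hlen⟩ := hlace
  have hid : ∀ x, (two S p 1 x).toReal = (if x = 1 then 1 else 0) + q x + (p : ℝ) *
      ∑' y, ((if y = 1 then 1 else 0) + q y) * ∑ s ∈ S, (two S p (y * s) x).toReal := fun x => by
    convert hid₀ x
  have hq : Summable q := summable_abs_iff.1 hqa
  have hP : |∑' x, q x| ≤ 1 / 20 := by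
    have h := norm_tsum_le_tsum_norm (f := q) hqa
    simp only [Real.norm_eq_abs] at h
    exact h.trans hqε
  have hP' := abs_le.1 hP
  set q0 := 1 + ∑' x, q x with hq0
  set D : ℝ := (S.card : ℝ)
  have hD : (1 : ℝ) ≤ D := Nat.one_le_cast.2 (card_pos.2 hne)
  set χ := ∑' x, ker S p x with hχ
  have hsum : χ = q0 * (1 + (p : ℝ) * D * χ) := tsum_identity hS hfin hq hid
  have hq0' : (19 : ℝ) / 20 ≤ q0 := by simp only [q0]; linarith
  have hq0'' : q0 ≤ 21 / 20 := by simp only [q0]; linarith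
  have hχ0 : 0 < χ := by
    have h0 : 0 ≤ χ := tsum_nonneg fun x => ker_nonneg x
    have : 0 ≤ (p : ℝ) * D * χ := mul_nonneg (mul_nonneg p.2.1 (by linarith)) h0
    rw [hsum]
    exact mul_pos (by linarith) (by linarith)
  have hinv : 1 / q0 - (p : ℝ) * D = 1 / χ := by
    field_simp
    linarith
  have hq00 : (0 : ℝ) < q0 := by linarith
  have hpD2 : (p : ℝ) * D ≤ 2 := by
    have : 1 / q0 ≤ 20 / 19 := by rw [div_le_div_iff₀ hq00 (by norm_num)]; linarith
    have : 0 < 1 / χ := by positivity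
    linarith
  clear_value χ
  refine ⟨hpD2, 8 / χ, by positivity, fun f => ?_⟩
  set T := op (ker S p)
  set A := steps S
  set h := T f with hh
  set w := f + (p : ℝ) • A h with hw
  have hT : h = op (coef q) w := by
    have := congrArg (fun L : L2 Γ →L[ℝ] L2 Γ => L f) (op_identity hS hfin hq hid)
    simpa only [mul_apply_eq_comp, add_apply, one_apply_eq_self, smul_apply] using this
  set v := op q w - (∑' x, q x) • w
  have hv : h = q0 • w + v := by
    rw [hT, op_coef_apply hq, hq0, add_smul, one_smul]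
    simp only [v]
    abel
  clear_value h w
  obtain ⟨hs2, hM⟩ := hlen (len w) (isLen_len w)
  set Ew := (p : ℝ) * energy S w with hEw
  have hEw' : (p : ℝ) * ∑ s ∈ S, (len w s : ℝ) ^ 2 = Ew := by
    simp only [hEw, energy]
    rfl
  rw [hEw'] at hM
  obtain ⟨hv1, hv2⟩ := perturb hqa hqε (by norm_num) w hs2 hM
  change ‖v‖ ^ 2 ≤ _ at hv1
  change |⟪v, w⟫_ℝ| ≤ _ at hv2
  clear_value v
  have hEw0 : 0 ≤ Ew := mul_nonneg p.2.1 (energy_nonneg S w)
  set Eh := (p : ℝ) * energy S h with hEh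
  have hEh0 : 0 ≤ Eh := mul_nonneg p.2.1 (energy_nonneg S h)
  -- the increments of `w` are controlled by those of `h`
  have hcmp : Ew ≤ 3 * Eh := increments hq0' hv hpD hv1
  -- the main inequality
  have hf : ⟪h, f⟫_ℝ = ⟪h, w⟫_ℝ - (p : ℝ) * D * ‖h‖ ^ 2 + Eh / 2 := by
    have := inner_steps S h
    rw [hw, inner_add_right, real_inner_smul_right, this, hEh]
    ring
  have hhw : q0 * ⟪h, w⟫_ℝ - ‖h‖ ^ 2 = -(q0 * ⟪v, w⟫_ℝ) - ‖v‖ ^ 2 := by
    rw [← real_inner_self_eq_norm_sq, ← real_inner_self_eq_norm_sq, hv]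
    simp only [inner_add_left, inner_add_right, real_inner_smul_left, real_inner_smul_right,
      real_inner_comm v w]
    ring
  have hkey : ‖h‖ ^ 2 / χ + Eh / 4 ≤ ⟪h, f⟫_ℝ := by
    rw [hf, div_eq_mul_one_div, ← hinv]
    have h1 : ⟪v, w⟫_ℝ ≤ 1 / 20 * Ew / 2 := (le_abs_self _).trans hv2
    have h5 := scalar hq0' h1 hv1 hcmp hEh0 hEw0 hhw
    linarith
  have hfin' : (1 / 16) * ⟪h, lap S (8 / χ) h⟫_ℝ ≤ ⟪h, f⟫_ℝ := by
    rw [inner_lap_le hne]
    refine low_end hD hq0'' hq00 hinv (energy_nonneg S h) ?_ (sq_nonneg _) hχ0 (mul_nonneg p.2.1 (by linarith)) ?_ hkey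
    · calc energy S h ≤ ∑ _s ∈ S, (2 * ‖h‖) ^ 2 := by
            refine sum_le_sum fun s _ => pow_le_pow_left₀ (norm_nonneg _) ?_ 2
            exact (norm_sub_le _ _).trans (by rw [norm_rmul]; linarith)
        _ = _ := by rw [sum_const, nsmul_eq_mul]; ring
    · rw [hEh]; ring
  rw [hh] at hfin'
  have hform := form_le_of_inv (T := T) (symm_lap hS.inv_mem (8 / χ))
    (lap_nonneg S (by positivity))
    (fun u => congrFun (congrArg DFunLike.coe (lap_green S (by positivity : 0 < 8 / χ))) u)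
    (by norm_num : (0 : ℝ) ≤ 1 / 16) f hfin'
  rw [hh]
  linarith

omit [Countable Γ] [DecidableEq Γ] in
/-- The walk does not depend on the instance deciding equality. -/
lemma walk_inst (i j : DecidableEq Γ) (S : Finset Γ) (n : ℕ) :
    @Return.walk Γ _ i S n 1 = @Return.walk Γ _ j S n 1 := by
  rw [Subsingleton.elim i j]

theorem traceStmt_ok : TraceStmt := by
  refine ⟨1 / 20, by norm_num, 8 ^ 17, by norm_num, ?_⟩
  intro Γ _ _ _ S p g hS hne hpD hfin hlace hg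
  obtain ⟨hpD2, η, hη, hle⟩ := form_bound hS hne hpD hfin hlace
  refine ⟨hpD2, ?_⟩
  have ht := summable_ker hfin
  rw [(kpow_eq hS hfin 17 1).2]
  refine ENNReal.ofReal_le_ofReal ?_
  have h := tr_odd_pow_le_green (A := op (ker S p)) hS.inv_mem hη (equivariant_op ht)
    (symm_op ht (ker_inv hS)) (by norm_num : (0 : ℝ) ≤ 16) hle 8 (C := g) (fun N => by
      rw [show 2 * 8 = 16 from rfl]
      exact le_of_eq_of_le (Finset.sum_congr rfl fun n _ =>
        congrArg _ (walk_inst _ (fun a b => Classical.propDecidable (a = b)) S n)) (hg N))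
  exact h.trans (le_of_eq (by norm_num))

end Vale.Agent.P151.Trace
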